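import Vale.Agent.P111.H753.Comb

namespace Vale.Agent.Results.P111.AlphaAndLOne

open Vale.Agent.P111 Vale.Agent.P111.H753

universe u v w

/-- The cotype-cotype conjecture for `X` with the BAP under one-sided property (α) inequalities,
and for `X` inside `L_1(μ; Y)`, `Y` of type `p₀ > 1`. -/
theorem result (X : Type u) [NormedAddCommGroup X] [NormedSpace ℝ X] :
    (CompleteSpace X → HasBAP X → AlphaForm X) ∧
    ∀ r : ℝ, HasCotype r (X →L[ℝ] ℝ) → ∀ p₀ : ℝ, 1 < p₀ → LOneForm.{u, v, w} X r p₀ :=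
  ⟨fun _ hB => alphaForm X hB, fun r hX p₀ hp₀ => lOneForm X r hX p₀ hp₀⟩

end Vale.Agent.Results.P111.AlphaAndLOne
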