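import Vale.Agent.P111.L1.Main

namespace Vale.Agent.Results.P111.LOneKConvex

open Vale.Agent.P111 Vale.Agent.P111.L1 MeasureTheory

universe u v w

/-- The cotype-cotype conjecture inside `L_1(μ; Y)`, `Y` of type `p₀ > 1` (all `r`).

Let `C_r(X*) < ∞`, `2 ≤ r < ∞`, let `1 < p₀`, and put `p = r p₀ / (r p₀ - p₀ + 1) > 1`
(that is, `1 / p' = 1 / (r p₀')`).
1. Every bounded operator from `X` into a space `L_1(μ; Y)`, `Y` of type `p₀`, has type `p`.
2. If `X` is isomorphic to a subspace of some `L_1(μ; Y)` with `Y` of type `p₀`, then `X` has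
   type `p`.
3. If `X` has the BAP and its finite-dimensional subspaces embed, with a uniform distortion,
   into spaces `L_1(μ; Y)` with `Y` of type `p₀` (uniform constant), then `X` has type `p`. -/
theorem result (X : Type u) [NormedAddCommGroup X] [NormedSpace ℝ X] (r : ℝ)
    (hX : HasCotype r (X →L[ℝ] ℝ)) (p₀ : ℝ) (hp₀ : 1 < p₀) :
    (∃ C : ℝ, ∀ (Ω : Type w) [MeasurableSpace Ω] (μ : Measure Ω) (Y : Type v)
      [NormedAddCommGroup Y] [NormedSpace ℝ Y] [CompleteSpace Y] (T : ℝ), 0 ≤ T →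
      TypeWith p₀ T Y → OpsTypeWith (pexp r p₀) (C * T) X (Lp Y 1 μ)) ∧
    ((∃ T D : ℝ, EmbedsL1.{u, v, w} p₀ T D X) → HasType (pexp r p₀) X) ∧
    (HasBAP X → (∃ T D : ℝ, ∀ G : Submodule ℝ X, FiniteDimensional ℝ G →
      EmbedsL1.{u, v, w} p₀ T D G) → HasType (pexp r p₀) X) := by
  obtain ⟨hr, C₀, hC₀⟩ := hX
  have hC : CotypeWith r (max C₀ 0) (X →L[ℝ] ℝ) := exists_nonneg_cotype hC₀
  have hC0 : 0 ≤ max C₀ 0 := le_max_right _ _
  have hp1 := one_lt_pexp hr hp₀
  have hp2 := pexp_le_two hr hp₀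
  refine ⟨⟨max C₀ 0 ^ (1 - 1 / p₀), ?_⟩, ?_, ?_⟩
  · intro Ω _ μ Y _ _ _ T hT hY J n x
    have h := operator_type hr hp₀ hC0 hT hC hY J x
    simp only [map_sum, map_smul] at h
    rw [mul_comm (max C₀ 0 ^ (1 - 1 / p₀)) T]
    exact h
  · rintro ⟨T, D, Ω, _, μ, Y, _, _, _, hT, J, hJ⟩
    refine ⟨hp1, hp2, _, type_of_local (D := ‖J‖) hr hp₀ hC0 (le_max_right T 0) hC ?_⟩
    intro n x δ hδ
    refine ⟨Ω, inferInstance, μ, Y, inferInstance, inferInstance, inferInstance, J,
      exists_nonneg_type hT, le_rfl, fun a _ => ?_⟩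
    have h1 := (hJ (∑ i, a i • x i)).1
    linarith
  · rintro ⟨lam, hlam⟩ ⟨T, D, hG⟩
    refine ⟨hp1, hp2, _, type_of_local (D := max D 0 * lam) hr hp₀ hC0 (le_max_right T 0) hC ?_⟩
    intro n x δ hδ
    obtain ⟨S, hS1, hS2, hS3⟩ := hlam (Set.range x) (Set.finite_range x).isCompact
      (δ / (n + 1)) (by positivity)
    set G : Submodule ℝ X := LinearMap.range (S : X →ₗ[ℝ] X) with hGdef
    obtain ⟨Ω, _, μ, Y, _, _, _, hY, J, hJ⟩ := hG G hS1
    set S' : X →L[ℝ] G := S.codRestrict G (fun u => ⟨u, rfl⟩) with hS'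
    have hS'n : ∀ u, ‖S' u‖ = ‖S u‖ := fun u => rfl
    refine ⟨Ω, inferInstance, μ, Y, inferInstance, inferInstance, inferInstance, J.comp S',
      exists_nonneg_type hY, ?_, ?_⟩
    · have hlam0 : 0 ≤ lam := (norm_nonneg _).trans hS2
      refine ContinuousLinearMap.opNorm_le_bound _ (by positivity) fun u => ?_
      calc ‖J (S' u)‖ ≤ D * ‖S' u‖ := (hJ _).2
        _ ≤ max D 0 * ‖S' u‖ := mul_le_mul_of_nonneg_right (le_max_left _ _) (norm_nonneg _)
        _ ≤ max D 0 * (lam * ‖u‖) := by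
            refine mul_le_mul_of_nonneg_left ?_ (le_max_right _ _)
            rw [hS'n]
            exact (S.le_opNorm u).trans (mul_le_mul_of_nonneg_right hS2 (norm_nonneg _))
        _ = max D 0 * lam * ‖u‖ := by ring
    · intro a ha
      have h1 : ‖S' (∑ i, a i • x i)‖ ≤ ‖J (S' (∑ i, a i • x i))‖ := (hJ _).1
      have h2 : ‖∑ i, a i • x i - S (∑ i, a i • x i)‖ ≤ δ := by
        have e : ∑ i, a i • x i - S (∑ i, a i • x i) = ∑ i, a i • (x i - S (x i)) := by
          simp [map_sum, smul_sub, Finset.sum_sub_distrib]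
        rw [e]
        calc ‖∑ i, a i • (x i - S (x i))‖ ≤ ∑ i, ‖a i • (x i - S (x i))‖ := norm_sum_le _ _
          _ ≤ ∑ _i : Fin n, δ / (n + 1) := by
              refine Finset.sum_le_sum fun i _ => ?_
              rw [norm_smul, Real.norm_eq_abs]
              have h3 := hS3 (x i) ⟨i, rfl⟩
              rw [norm_sub_rev] at h3
              calc |a i| * ‖x i - S (x i)‖ ≤ 1 * (δ / (n + 1)) :=
                    mul_le_mul (ha i) h3.le (norm_nonneg _) zero_le_one
                _ = _ := one_mul _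
          _ = n * (δ / (n + 1)) := by simp
          _ ≤ δ := by
              rw [← mul_div_assoc, div_le_iff₀ (by positivity)]
              nlinarith
      have h4 : ‖∑ i, a i • x i‖ ≤ ‖S (∑ i, a i • x i)‖ + δ := by
        have := norm_le_norm_add_norm_sub' (∑ i, a i • x i) (S (∑ i, a i • x i))
        linarith
      rw [hS'n] at h1
      exact h4.trans (add_le_add_left h1 δ)

end Vale.Agent.Results.P111.LOneKConvex
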